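import Mathlib
import Vale.Agent.Lib.P201.helper40.Fox

/-!
# Reduced words and Fox derivatives of group elements (helper2, for P201 Lemma C)
-/

namespace Vale.Agent.Lib.P201.H2

open MonoidAlgebra Vale.Agent.Lib.P201.H40

section Words

variable {X : Type*} [DecidableEq X]

/-- The reduced word of `mk [s] * h`: the first letter of `h` cancels or `s` is put in front. -/
theorem toWord_letter_mul (s : X × Bool) (h : FreeGroup X) :
    (FreeGroup.mk [s] * h).toWord =
      if h.toWord.head? = some (s.1, !s.2) then h.toWord.tail else s :: h.toWord := by
  have hred : FreeGroup.IsReduced h.toWord := FreeGroup.isReduced_toWord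
  rw [FreeGroup.toWord_mul, FreeGroup.toWord_mk, FreeGroup.reduce_singleton]
  cases hw : h.toWord with
  | nil => simp
  | cons t w =>
    rw [hw] at hred
    by_cases ht : t = (s.1, !s.2)
    · subst ht
      have e2 : FreeGroup.reduce ((s.1, !s.2) :: w) = (s.1, !s.2) :: w := hred.reduce_eq
      have e3 : FreeGroup.reduce ([s] ++ (s.1, !s.2) :: w) = w := by
        show FreeGroup.reduce (s :: (s.1, !s.2) :: w) = w
        rw [FreeGroup.reduce.cons, e2]
        simp
      rw [e3]
      simp
    · have e3 : FreeGroup.reduce ([s] ++ t :: w) = s :: t :: w := by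
        show FreeGroup.reduce (s :: t :: w) = s :: t :: w
        apply FreeGroup.IsReduced.reduce_eq
        rw [FreeGroup.isReduced_cons_cons]
        refine ⟨fun h1 => ?_, hred⟩
        by_contra h2
        apply ht
        apply Prod.ext
        · exact h1.symm
        · show t.2 = !s.2
          cases hs : s.2 <;> cases ht2 : t.2 <;> simp_all
      rw [e3]
      have hne : ¬ (t = (s.1, !s.2)) := ht
      simp [hne]

/-- An element whose reduced word is `s :: w` is `mk [s] * mk w`, and `w` is the reduced word of
`mk w`. -/
theorem toWord_cons_split (g : FreeGroup X) (s : X × Bool) (w : List (X × Bool))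
    (hg : g.toWord = s :: w) :
    g = FreeGroup.mk [s] * FreeGroup.mk w ∧ (FreeGroup.mk w).toWord = w := by
  have hred : FreeGroup.IsReduced g.toWord := FreeGroup.isReduced_toWord
  rw [hg] at hred
  have hw : FreeGroup.IsReduced w := by
    cases w with
    | nil => exact FreeGroup.IsReduced.nil
    | cons t w' => exact (FreeGroup.isReduced_cons_cons.1 hred).2
  refine ⟨?_, ?_⟩
  · rw [FreeGroup.mul_mk]
    have e : FreeGroup.mk (g.toWord) = g := FreeGroup.mk_toWord
    rw [hg] at e
    exact e.symm
  · rw [FreeGroup.toWord_mk]
    exact hw.reduce_eq

end Words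

theorem mk_true {X : Type*} (y : X) : FreeGroup.mk [(y, true)] = FreeGroup.of y := rfl

theorem mk_false {X : Type*} (y : X) : FreeGroup.mk [(y, false)] = (FreeGroup.of y)⁻¹ := by
  rw [← mk_true, FreeGroup.inv_mk]
  rfl

section FoxWords

variable (K : Type*) [CommRing K] {X : Type*} [DecidableEq X]

/-- The support of the Fox derivative of a group element `g`: shorter words, and `g` itself if
its reduced word starts with the inverse letter. -/
theorem fd_supp (x : X) : ∀ (n : ℕ) (g : FreeGroup X), g.toWord.length = n →
    ∀ h : FreeGroup X, (fd K x g).coeff h ≠ 0 →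
      h.toWord.length < g.toWord.length ∨ (h = g ∧ g.toWord.head? = some (x, false)) := by
  intro n
  induction n with
  | zero =>
    intro g hg h hh
    have g1 : g = 1 := FreeGroup.toWord_eq_nil_iff.1 (List.length_eq_zero_iff.1 hg)
    rw [g1, fd_one] at hh
    simp at hh
  | succ n ih =>
    intro g hg h hh
    obtain ⟨s, w, hw⟩ : ∃ s w, g.toWord = s :: w := by
      cases hgw : g.toWord with
      | nil => rw [hgw] at hg; simp at hg
      | cons s w => exact ⟨s, w, rfl⟩
    obtain ⟨e1, e2⟩ := toWord_cons_split g s w hw
    have hwl : (FreeGroup.mk w).toWord.length = n := by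
      rw [e2]
      rw [hw] at hg
      simpa using hg
    have hh' : (fd K x (FreeGroup.mk [s]) * single (FreeGroup.mk w) 1).coeff h +
        (fd K x (FreeGroup.mk w)).coeff h ≠ 0 := by
      rw [← Finsupp.add_apply, ← coeff_add, ← fd_mul, ← e1]
      exact hh
    by_cases h2 : (fd K x (FreeGroup.mk w)).coeff h = 0
    · rw [h2, add_zero] at hh'
      obtain ⟨y, b⟩ := s
      cases b with
      | true =>
        rw [mk_true] at hh'
        by_cases hy : y = x
        · subst hy
          rw [fd_of_self, one_mul, coeff_single, Finsupp.single_apply] at hh'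
          have e3 : FreeGroup.mk w = h := by
            by_contra hne
            rw [if_neg hne] at hh'
            exact hh' rfl
          left
          rw [← e3, hwl, hg]
          exact Nat.lt_succ_self n
        · rw [fd_of_ne K x y hy, zero_mul] at hh'
          simp at hh'
      | false =>
        rw [mk_false] at hh'
        by_cases hy : y = x
        · subst hy
          rw [fd_inv_of_self, neg_mul, single_mul_single, one_mul, coeff_neg, Finsupp.neg_apply,
            coeff_single, Finsupp.single_apply] at hh'
          have e3 : (FreeGroup.of y)⁻¹ * FreeGroup.mk w = h := by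
            by_contra hne
            rw [if_neg hne] at hh'
            simp at hh'
          right
          refine ⟨?_, ?_⟩
          · rw [← e3, e1, mk_false]
          · rw [hw]
            rfl
        · rw [fd_inv_of_ne K x y hy, zero_mul] at hh'
          simp at hh'
    · rcases ih (FreeGroup.mk w) hwl h h2 with h3 | ⟨h3, -⟩
      · left
        rw [hwl] at h3
        rw [hg]
        exact Nat.lt_succ_of_lt h3
      · left
        rw [h3, hwl, hg]
        exact Nat.lt_succ_self n

/-- The reduced word of `of x * h` when `h` does not start with the inverse letter. -/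
theorem toWord_of_mul (x : X) (h : FreeGroup X) (hh : h.toWord.head? ≠ some (x, false)) :
    (FreeGroup.of x * h).toWord = (x, true) :: h.toWord := by
  rw [← mk_true, toWord_letter_mul]
  have e : ¬ (h.toWord.head? = some (((x, true) : X × Bool).1, !((x, true) : X × Bool).2)) := hh
  rw [if_neg e]

/-- The coefficient of `g` in its own Fox derivative when `g` starts with the inverse letter. -/
theorem fd_self_coeff (x : X) (g : FreeGroup X) (hg : g.toWord.head? = some (x, false)) :
    (fd K x g).coeff g = -1 := by
  obtain ⟨w, hw⟩ : ∃ w, g.toWord = (x, false) :: w := by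
    cases hgw : g.toWord with
    | nil => rw [hgw] at hg; simp at hg
    | cons s w =>
      rw [hgw] at hg
      simp only [List.head?_cons, Option.some.injEq] at hg
      exact ⟨w, by rw [hg]⟩
  obtain ⟨e1, e2⟩ := toWord_cons_split g (x, false) w hw
  have h2 : (fd K x (FreeGroup.mk w)).coeff g = 0 := by
    by_contra hne
    rcases fd_supp K x _ (FreeGroup.mk w) rfl g hne with h3 | ⟨h3, -⟩
    · rw [e2, hw] at h3
      simp at h3
    · have h4 := congrArg (fun t : FreeGroup X => t.toWord.length) h3
      simp only [e2, hw, List.length_cons] at h4
      omega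
  have h5 : fd K x g = - single g 1 + fd K x (FreeGroup.mk w) := by
    have e3 : g = (FreeGroup.of x)⁻¹ * FreeGroup.mk w := by rw [← mk_false]; exact e1
    conv_lhs => rw [e3]
    rw [fd_mul, fd_inv_of_self, neg_mul, single_mul_single, one_mul, ← e3]
  rw [h5, coeff_add, Finsupp.add_apply, h2, add_zero, coeff_neg, Finsupp.neg_apply, coeff_single,
    Finsupp.single_apply, if_pos rfl]

/-- The coefficient of a long word `h` (not starting with the inverse letter) in the Fox
derivative of `g`, when `g` is at most one letter longer than `h`. -/
theorem fd_coeff_top (x : X) (g h : FreeGroup X) (hn : g.toWord.length ≤ h.toWord.length + 1)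
    (hh : h.toWord.head? ≠ some (x, false)) :
    (fd K x g).coeff h = if g = FreeGroup.of x * h then 1 else 0 := by
  have hxh := toWord_of_mul x h hh
  cases hgw : g.toWord with
  | nil =>
    have g1 : g = 1 := FreeGroup.toWord_eq_nil_iff.1 hgw
    have hne : ¬ (g = FreeGroup.of x * h) := by
      intro e
      rw [e, hxh] at hgw
      simp at hgw
    rw [if_neg hne, g1, fd_one]
    simp
  | cons s w =>
    obtain ⟨e1, e2⟩ := toWord_cons_split g s w hgw
    have h2 : (fd K x (FreeGroup.mk w)).coeff h = 0 := by
      by_contra hne
      rcases fd_supp K x _ (FreeGroup.mk w) rfl h hne with h3 | ⟨h3, h4⟩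
      · rw [e2] at h3
        rw [hgw] at hn
        simp only [List.length_cons] at hn
        omega
      · apply hh
        rw [h3]
        exact h4
    have h5 : (fd K x g).coeff h =
        (fd K x (FreeGroup.mk [s]) * single (FreeGroup.mk w) 1).coeff h := by
      conv_lhs => rw [e1]
      rw [fd_mul, coeff_add, Finsupp.add_apply, h2, add_zero]
    rw [h5]
    obtain ⟨y, b⟩ := s
    cases b with
    | true =>
      rw [mk_true] at e1 ⊢
      by_cases hy : y = x
      · subst hy
        rw [fd_of_self, one_mul, coeff_single, Finsupp.single_apply]
        have hiff : (FreeGroup.mk w = h) ↔ (g = FreeGroup.of y * h) := by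
          rw [e1]
          exact (mul_right_inj _).symm
        by_cases hc : FreeGroup.mk w = h
        · rw [if_pos hc, if_pos (hiff.1 hc)]
        · rw [if_neg hc, if_neg (fun e => hc (hiff.2 e))]
      · have hne : ¬ (g = FreeGroup.of x * h) := by
          intro e
          rw [e, hxh] at hgw
          simp only [List.cons.injEq, Prod.mk.injEq] at hgw
          exact hy hgw.1.1.symm
        rw [if_neg hne, fd_of_ne K x y hy, zero_mul]
        simp
    | false =>
      have hne : ¬ (g = FreeGroup.of x * h) := by
        intro e
        rw [e, hxh] at hgw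
        simp at hgw
      rw [if_neg hne, mk_false]
      by_cases hy : y = x
      · subst hy
        have hgh : ¬ ((FreeGroup.of y)⁻¹ * FreeGroup.mk w = h) := by
          intro e
          apply hh
          rw [← e, ← mk_false, ← e1, hgw]
          rfl
        rw [fd_inv_of_self, neg_mul, single_mul_single, one_mul, coeff_neg, Finsupp.neg_apply,
          coeff_single, Finsupp.single_apply, if_neg hgh, neg_zero]
      · rw [fd_inv_of_ne K x y hy, zero_mul]
        simp

end FoxWords

end Vale.Agent.Lib.P201.H2
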