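import Mathlib
import Vale.Agent.Lib.P201.helper40.Fox
import Vale.Agent.Lib.P201.helper2.Words

/-!
# Lemma C for the free differential calculus (helper2, second copy, for P201)

If a predicate on the group algebra of a free group is stable under all Fox derivatives and
implies that the augmentation vanishes, then it holds only for `0`.  Equivalently: the powers of
the augmentation ideal of a free group algebra have zero intersection.

Proof: strong induction on the maximal word length `L` in the support.  Let `I` be the set of
elements all of whose iterated Fox derivatives have augmentation zero; it is a left ideal stable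
under the derivatives.  If `r` in `I` has a word of length `L` with first letter `y` or its
inverse, then `r1 = D_y r` is nonzero and its words of length `L` start with the inverse of `y`;
`r2 = y * r1` has its words of length `L` starting with `y`; `D_y r2` has no word of length `L`,
hence is zero, which forces `r2` to have no word of length `L`, hence `r2 = 0`, a contradiction.
-/

namespace Vale.Agent.Lib.P201.H2

open MonoidAlgebra Vale.Agent.Lib.P201.H40

/-- Coefficients of the Fox derivative of a general element. -/
theorem D_coeff (K : Type*) [CommRing K] {X : Type*} (x : X) (r : MonoidAlgebra K (FreeGroup X)) (h : FreeGroup X) :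
    (D K x r).coeff h = r.coeff.sum (fun g c => c * (fd K x g).coeff h) := by
  induction r using MonoidAlgebra.induction_linear with
  | zero => simp
  | add u v hu hv =>
    rw [map_add, coeff_add, Finsupp.add_apply, hu, hv, coeff_add,
      Finsupp.sum_add_index' (fun g => by simp) (fun g c1 c2 => by ring)]
  | single g c =>
    rw [D_single, coeff_smul, Finsupp.smul_apply, smul_eq_mul, coeff_single,
      Finsupp.sum_single_index (by simp)]

section Coeff

variable (K : Type*) [CommRing K] {X : Type*} [DecidableEq X]

theorem D_supp (x : X) (r : MonoidAlgebra K (FreeGroup X)) (L : ℕ)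
    (hL : ∀ g, r.coeff g ≠ 0 → g.toWord.length ≤ L) (h : FreeGroup X)
    (hh : (D K x r).coeff h ≠ 0) :
    h.toWord.length < L ∨
      (h.toWord.length ≤ L ∧ r.coeff h ≠ 0 ∧ h.toWord.head? = some (x, false)) := by
  rw [D_coeff, Finsupp.sum] at hh
  obtain ⟨g, hg, hne⟩ := Finset.exists_ne_zero_of_sum_ne_zero hh
  have hg' : r.coeff g ≠ 0 := Finsupp.mem_support_iff.1 hg
  have h1 : (fd K x g).coeff h ≠ 0 := right_ne_zero_of_mul hne
  rcases fd_supp K x _ g rfl h h1 with h2 | ⟨h2, h3⟩
  · left
    exact lt_of_lt_of_le h2 (hL g hg')
  · right
    subst h2
    exact ⟨hL _ hg', hg', h3⟩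

theorem D_coeff_tail (x : X) (r : MonoidAlgebra K (FreeGroup X)) (k : FreeGroup X)
    (hL : ∀ g, r.coeff g ≠ 0 → g.toWord.length ≤ k.toWord.length + 1)
    (hk : k.toWord.head? ≠ some (x, false)) :
    (D K x r).coeff k = r.coeff (FreeGroup.of x * k) := by
  rw [D_coeff, Finsupp.sum]
  have e : ∀ g ∈ r.coeff.support, r.coeff g * (fd K x g).coeff k =
      if g = FreeGroup.of x * k then r.coeff g else 0 := by
    intro g hg
    rw [fd_coeff_top K x g k (hL g (Finsupp.mem_support_iff.1 hg)) hk]
    split_ifs <;> simp
  rw [Finset.sum_congr rfl e, Finset.sum_ite_eq']
  split_ifs with hmem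
  · rfl
  · exact (Finsupp.notMem_support_iff.1 hmem).symm

theorem D_coeff_self (x : X) (r : MonoidAlgebra K (FreeGroup X)) (g0 : FreeGroup X)
    (hL : ∀ g, r.coeff g ≠ 0 → g.toWord.length ≤ g0.toWord.length)
    (hg0 : g0.toWord.head? = some (x, false)) :
    (D K x r).coeff g0 = - r.coeff g0 := by
  rw [D_coeff, Finsupp.sum]
  have e : ∀ g ∈ r.coeff.support, r.coeff g * (fd K x g).coeff g0 =
      if g = g0 then - r.coeff g else 0 := by
    intro g hg
    by_cases hgg : g = g0
    · subst hgg
      rw [if_pos rfl, fd_self_coeff K x g hg0, mul_neg, mul_one]
    · rw [if_neg hgg]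
      have h0 : (fd K x g).coeff g0 = 0 := by
        by_contra hne
        rcases fd_supp K x _ g rfl g0 hne with h2 | ⟨h2, -⟩
        · have h3 := hL g (Finsupp.mem_support_iff.1 hg)
          omega
        · exact hgg h2.symm
      rw [h0, mul_zero]
  rw [Finset.sum_congr rfl e, Finset.sum_ite_eq']
  split_ifs with hmem
  · rfl
  · rw [Finsupp.notMem_support_iff.1 hmem, neg_zero]

/-- In a reduced word a letter is not followed by its inverse. -/
theorem head_tail_ne (g : FreeGroup X) (y : X) (w : List (X × Bool))
    (hw : g.toWord = (y, true) :: w) : w.head? ≠ some (y, false) := by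
  have hred : FreeGroup.IsReduced g.toWord := FreeGroup.isReduced_toWord
  rw [hw] at hred
  intro hh
  cases w with
  | nil => simp at hh
  | cons t w' =>
    simp only [List.head?_cons, Option.some.injEq] at hh
    subst hh
    have h1 := (FreeGroup.isReduced_cons_cons.1 hred).1 rfl
    simp at h1

end Coeff

section Ideal

variable (K : Type*) [CommRing K] {X : Type*}

/-- Iterated Fox derivatives along a list of generators (the head is applied first). -/
noncomputable def Dl : List X → (MonoidAlgebra K (FreeGroup X) →ₗ[K] MonoidAlgebra K (FreeGroup X))
  | [] => LinearMap.id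
  | x :: u => (Dl u).comp (D K x)

/-- All iterated Fox derivatives have augmentation zero. -/
def InI (r : MonoidAlgebra K (FreeGroup X)) : Prop :=
  ∀ u : List X, aug K (FreeGroup X) (Dl K u r) = 0

theorem InI_aug {r : MonoidAlgebra K (FreeGroup X)} (h : InI K r) :
    aug K (FreeGroup X) r = 0 := h []

theorem InI_D {r : MonoidAlgebra K (FreeGroup X)} (h : InI K r) (x : X) : InI K (D K x r) :=
  fun u => h (x :: u)

theorem InI_mul_aux (u : List X) : ∀ s r : MonoidAlgebra K (FreeGroup X), InI K r →
    aug K (FreeGroup X) (Dl K u (s * r)) = 0 := by
  induction u with
  | nil =>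
    intro s r h
    show aug K (FreeGroup X) (s * r) = 0
    rw [map_mul, InI_aug K h, mul_zero]
  | cons x u ih =>
    intro s r h
    show aug K (FreeGroup X) (Dl K u (D K x (s * r))) = 0
    have h1 : aug K (FreeGroup X) (Dl K u (D K x r)) = 0 := InI_D K h x u
    rw [D_mul, map_add, map_add, map_smul, map_smul, ih (D K x s) r h, h1, smul_zero, zero_add]

theorem InI_mul {r : MonoidAlgebra K (FreeGroup X)} (h : InI K r)
    (s : MonoidAlgebra K (FreeGroup X)) : InI K (s * r) :=
  fun u => InI_mul_aux K u s r h

end Ideal

section Main

variable (K : Type*) [CommRing K] {X : Type*}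

theorem InI_eq_zero_aux [DecidableEq X] : ∀ (L : ℕ) (r : MonoidAlgebra K (FreeGroup X)),
    InI K r → (∀ g, r.coeff g ≠ 0 → g.toWord.length < L) → r = 0 := by
  intro L
  induction L with
  | zero =>
    intro r _ hL
    apply coeff_injective
    ext g
    by_contra hne
    exact absurd (hL g (by simpa using hne)) (Nat.not_lt_zero _)
  | succ L ih =>
    intro r hI hL
    have hL' : ∀ g, r.coeff g ≠ 0 → g.toWord.length ≤ L :=
      fun g hg => Nat.lt_succ_iff.1 (hL g hg)
    by_cases htop : ∃ g0, r.coeff g0 ≠ 0 ∧ g0.toWord.length = L
    · exfalso
      obtain ⟨g0, hg0, hlen⟩ := htop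
      cases hw : g0.toWord with
      | nil =>
        rw [hw] at hlen
        simp only [List.length_nil] at hlen
        subst hlen
        have g1 : g0 = 1 := FreeGroup.toWord_eq_nil_iff.1 hw
        have hr : r = single 1 (r.coeff 1) := by
          apply coeff_injective
          ext g
          rw [coeff_single, Finsupp.single_apply]
          by_cases hg : (1 : FreeGroup X) = g
          · rw [if_pos hg, hg]
          · rw [if_neg hg]
            by_contra hne
            have h1 := hL' g hne
            have h2 : g = 1 :=
              FreeGroup.toWord_eq_nil_iff.1 (List.length_eq_zero_iff.1 (Nat.le_zero.1 h1))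
            exact hg h2.symm
        have h0 := InI_aug K hI
        rw [hr, aug_single] at h0
        rw [g1] at hg0
        exact hg0 h0
      | cons s w =>
        obtain ⟨y, b⟩ := s
        have hlenw : w.length + 1 = L := by
          rw [hw] at hlen
          simpa using hlen
        have hr1I : InI K (D K y r) := InI_D K hI y
        have hr1ne : D K y r ≠ 0 := by
          cases b with
          | true =>
            obtain ⟨e1, e2⟩ := toWord_cons_split g0 (y, true) w hw
            rw [mk_true] at e1
            have hk : (FreeGroup.mk w).toWord.head? ≠ some (y, false) := by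
              rw [e2]
              exact head_tail_ne g0 y w hw
            have hc := D_coeff_tail K y r (FreeGroup.mk w) (by
              intro g hg
              rw [e2]
              have h1 := hL' g hg
              omega) hk
            rw [← e1] at hc
            intro hz
            rw [hz] at hc
            apply hg0
            rw [← hc]
            simp
          | false =>
            have hc := D_coeff_self K y r g0 (by
              intro g hg
              rw [hlen]
              exact hL' g hg) (by rw [hw]; rfl)
            intro hz
            rw [hz] at hc
            apply hg0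
            have h1 : - r.coeff g0 = 0 := by
              rw [← hc]
              simp
            exact neg_eq_zero.1 h1
        have hr1supp : ∀ h, (D K y r).coeff h ≠ 0 →
            h.toWord.length < L ∨ (h.toWord.length ≤ L ∧ h.toWord.head? = some (y, false)) := by
          intro h hh
          rcases D_supp K y r L hL' h hh with h1 | ⟨h1, -, h3⟩
          · exact Or.inl h1
          · exact Or.inr ⟨h1, h3⟩
        obtain ⟨r1, hr1⟩ : ∃ r1, r1 = D K y r := ⟨_, rfl⟩
        rw [← hr1] at hr1I hr1ne hr1supp
        obtain ⟨r2, hr2⟩ : ∃ r2, r2 = single (FreeGroup.of y) (1 : K) * r1 := ⟨_, rfl⟩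
        have hr2I : InI K r2 := by
          rw [hr2]
          exact InI_mul K hr1I _
        have hr2coeff : ∀ h, r2.coeff h = r1.coeff ((FreeGroup.of y)⁻¹ * h) := by
          intro h
          rw [hr2, coeff_single_mul_apply, one_mul]
        have hr2supp : ∀ h, r2.coeff h ≠ 0 →
            h.toWord.length ≤ L ∧ (h.toWord.length = L → h.toWord.head? = some (y, true)) := by
          intro h hh
          rw [hr2coeff] at hh
          obtain ⟨k, hkdef⟩ : ∃ k, k = (FreeGroup.of y)⁻¹ * h := ⟨_, rfl⟩
          rw [← hkdef] at hh
          have hh_eq : h = FreeGroup.of y * k := by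
            rw [hkdef, mul_inv_cancel_left]
          have hword := toWord_letter_mul (y, true) k
          rw [mk_true, ← hh_eq] at hword
          have hword' : h.toWord =
              if k.toWord.head? = some (y, false) then k.toWord.tail else (y, true) :: k.toWord :=
            hword
          rcases hr1supp k hh with h1 | ⟨h1, h3⟩
          · by_cases hc : k.toWord.head? = some (y, false)
            · rw [if_pos hc] at hword'
              rw [hword', List.length_tail]
              constructor
              · omega
              · intro h4
                omega
            · rw [if_neg hc] at hword'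
              rw [hword']
              constructor
              · simp only [List.length_cons]
                omega
              · intro _
                rfl
          · rw [if_pos h3] at hword'
            have hkne : 0 < k.toWord.length := by
              cases hkw : k.toWord with
              | nil => rw [hkw] at h3; simp at h3
              | cons t w' => simp
            rw [hword', List.length_tail]
            constructor
            · omega
            · intro h4
              omega
        obtain ⟨r3, hr3⟩ : ∃ r3, r3 = D K y r2 := ⟨_, rfl⟩
        have hr3I : InI K r3 := by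
          rw [hr3]
          exact InI_D K hr2I y
        have hr3supp : ∀ h, r3.coeff h ≠ 0 → h.toWord.length < L := by
          intro h hh
          rw [hr3] at hh
          rcases D_supp K y r2 L (fun g hg => (hr2supp g hg).1) h hh with h1 | ⟨h1, h2, h3⟩
          · exact h1
          · refine lt_of_le_of_ne h1 (fun h4 => ?_)
            have h5 := (hr2supp h h2).2 h4
            rw [h3] at h5
            simp at h5
        have hr3z : r3 = 0 := ih r3 hr3I hr3supp
        have hr2top : ∀ h, r2.coeff h ≠ 0 → h.toWord.length < L := by
          intro h hh
          obtain ⟨h1, h2⟩ := hr2supp h hh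
          refine lt_of_le_of_ne h1 (fun h4 => ?_)
          have h5 := h2 h4
          obtain ⟨w', hw'⟩ : ∃ w', h.toWord = (y, true) :: w' := by
            cases hhw : h.toWord with
            | nil => rw [hhw] at h5; simp at h5
            | cons t w' =>
              rw [hhw] at h5
              simp only [List.head?_cons, Option.some.injEq] at h5
              exact ⟨w', by rw [h5]⟩
          obtain ⟨e1, e2⟩ := toWord_cons_split h (y, true) w' hw'
          rw [mk_true] at e1
          have hk : (FreeGroup.mk w').toWord.head? ≠ some (y, false) := by
            rw [e2]
            exact head_tail_ne h y w' hw'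
          have hc := D_coeff_tail K y r2 (FreeGroup.mk w') (by
            intro g hg
            rw [e2]
            have h6 := (hr2supp g hg).1
            rw [hw'] at h4
            simp only [List.length_cons] at h4
            omega) hk
          rw [← e1, ← hr3, hr3z] at hc
          apply hh
          rw [← hc]
          simp
        have hr2z : r2 = 0 := ih r2 hr2I hr2top
        apply hr1ne
        have h7 : r1 = single (FreeGroup.of y)⁻¹ (1 : K) * r2 := by
          rw [hr2, ← mul_assoc, single_mul_single, inv_mul_cancel, one_mul, ← one_def, one_mul]
        rw [h7, hr2z, mul_zero]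
    · exact ih r hI (fun g hg => lt_of_le_of_ne (hL' g hg) (fun e => htop ⟨g, hg, e⟩))

/-- **Lemma C.** A predicate on the group algebra of a free group that is stable under the Fox
derivatives and implies vanishing augmentation holds only for `0`. -/
theorem lemmaC (P : MonoidAlgebra K (FreeGroup X) → Prop)
    (h0 : ∀ r, P r → aug K (FreeGroup X) r = 0)
    (hD : ∀ r x, P r → P (D K x r)) : ∀ r, P r → r = 0 := by
  classical
  intro r hr
  have hI : InI K r := by
    intro u
    induction u generalizing r with
    | nil => exact h0 r hr
    | cons x u ih => exact ih (D K x r) (hD r x hr)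
  exact InI_eq_zero_aux K (r.coeff.support.sup (fun g => g.toWord.length) + 1) r hI
    (fun g hg => Nat.lt_succ_of_le
      (Finset.le_sup (f := fun g : FreeGroup X => g.toWord.length)
        (Finsupp.mem_support_iff.2 hg)))

/-- Lemma C in list form: if all iterated Fox derivatives of `r` have augmentation zero, then
`r = 0` (the head of the list is applied first). -/
theorem lemmaC_fold (r : MonoidAlgebra K (FreeGroup X))
    (h : ∀ l : List X, aug K (FreeGroup X) (l.foldl (fun acc i => D K i acc) r) = 0) : r = 0 :=
  lemmaC K (fun r => ∀ l : List X, aug K (FreeGroup X) (l.foldl (fun acc i => D K i acc) r) = 0)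
    (fun _ hr => hr [])
    (fun _ x hr l => hr (x :: l))
    r h

end Main

end Vale.Agent.Lib.P201.H2
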